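import Vale.Agent.P235.H141.JDefs

/-!
# `[LK]` (helper578): a connected graph with a minor `K33 ⊕g hub 2 r` has the minor `jj r`:
`K_{3,3}` and the `r × r` grid, one vertex of `K_{3,3}` being joined to the boundary of the grid.
-/

namespace Vale.Agent.P235.H578

open SimpleGraph Vale.Agent.P235.H134 Vale.Agent.P235.H56 Vale.Agent.P235.H141
open Vale.Agent.P235.H341W (capG)

/-- `K_{3,3}` and the `r × r` grid, disjoint, and all the edges from one vertex of `K_{3,3}` to the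
boundary of the grid -/
def jj (r : ℕ) : SimpleGraph ((Fin 3 ⊕ Fin 3) ⊕ (Fin r × Fin r)) :=
  (K33 ⊕g grid r) ⊔ SimpleGraph.fromRel (fun p q => p = Sum.inl (Sum.inl 0) ∧
    ∃ z ∈ bd r, q = Sum.inr z)

section sets
variable {V : Type} {G : SimpleGraph V}

theorem conn_union {A B : Set V} (hA : (G.induce A).Connected)
    (hB : (G.induce B).Connected) (h : ∃ a ∈ A, ∃ b ∈ B, G.Adj a b) :
    (G.induce (A ∪ B)).Connected := by
  obtain ⟨a, ha, b, hb, hab⟩ := h
  have h0 : (G.induce (A ∪ B)).Adj ⟨a, Or.inl ha⟩ ⟨b, Or.inr hb⟩ := hab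
  have h1 : ∀ v (hv : v ∈ A ∪ B), (G.induce (A ∪ B)).Reachable ⟨a, Or.inl ha⟩ ⟨v, hv⟩ := by
    rintro v (hv | hv)
    · exact (hA.preconnected ⟨a, ha⟩ ⟨v, hv⟩).map
        (SimpleGraph.induceHomOfLE G (Set.subset_union_left : A ⊆ A ∪ B)).toHom
    · exact h0.reachable.trans ((hB.preconnected ⟨b, hb⟩ ⟨v, hv⟩).map
        (SimpleGraph.induceHomOfLE G (Set.subset_union_right : B ⊆ A ∪ B)).toHom)
  have : Nonempty (A ∪ B : Set V) := ⟨⟨a, Or.inl ha⟩⟩
  exact ⟨fun u v => (h1 u.1 u.2).symm.trans (h1 v.1 v.2)⟩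

theorem conn_union' {A B : Set V} (hA : (G.induce A).Connected)
    (hB : (G.induce B).Connected) (h : ∃ a ∈ A, a ∈ B) :
    (G.induce (A ∪ B)).Connected := by
  obtain ⟨a, ha, hb⟩ := h
  have h1 : ∀ v (hv : v ∈ A ∪ B), (G.induce (A ∪ B)).Reachable ⟨a, Or.inl ha⟩ ⟨v, hv⟩ := by
    rintro v (hv | hv)
    · exact (hA.preconnected ⟨a, ha⟩ ⟨v, hv⟩).map
        (SimpleGraph.induceHomOfLE G (Set.subset_union_left : A ⊆ A ∪ B)).toHom
    · exact ((hB.preconnected ⟨a, hb⟩ ⟨v, hv⟩).map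
        (SimpleGraph.induceHomOfLE G (Set.subset_union_right : B ⊆ A ∪ B)).toHom)
  have : Nonempty (A ∪ B : Set V) := ⟨⟨a, Or.inl ha⟩⟩
  exact ⟨fun u v => (h1 u.1 u.2).symm.trans (h1 v.1 v.2)⟩

/-- a path between two sets with no inner vertex in them: its inner part, empty or connected -/
theorem exists_link {A B : Set V} (hG : G.Connected) (hA : A.Nonempty) (hB : B.Nonempty)
    (hAB : Disjoint A B) :
    ∃ a ∈ A, ∃ P : Set V, Disjoint P A ∧ (∃ b ∈ P, b ∈ B ∧ ∀ x ∈ P, x ∈ B → x = b) ∧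
      (G.induce P).Connected ∧ ∃ x ∈ P, G.Adj a x := by
  classical
  -- a shortest walk
  have hex : ∃ n, ∃ a ∈ A, ∃ b ∈ B, ∃ w : G.Walk a b, w.length = n := by
    obtain ⟨a, ha⟩ := hA
    obtain ⟨b, hb⟩ := hB
    obtain ⟨w⟩ := hG.preconnected a b
    exact ⟨w.length, a, ha, b, hb, w, rfl⟩
  obtain ⟨a, ha, b, hb, w, hw⟩ := Nat.find_spec hex
  have hmin : ∀ a' ∈ A, ∀ b' ∈ B, ∀ w' : G.Walk a' b', w.length ≤ w'.length := by
    intro a' ha' b' hb' w'
    rw [hw]
    exact Nat.find_min' hex ⟨a', ha', b', hb', w', rfl⟩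
  cases w with
  | nil => exact absurd hb (Set.disjoint_left.1 hAB ha)
  | @cons _ c _ hac p =>
    refine ⟨a, ha, {x | x ∈ p.support}, ?_, ⟨b, p.end_mem_support, hb, ?_⟩, ?_,
      ⟨c, p.start_mem_support, hac⟩⟩
    · rw [Set.disjoint_left]
      intro x hx hxA
      have hx' : x ∈ p.support := hx
      have h1 := hmin x hxA b hb (p.dropUntil x hx')
      have h2 := p.length_dropUntil_le_length hx'
      rw [Walk.length_cons] at h1
      omega
    · intro x hx hxB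
      have hx' : x ∈ p.support := hx
      by_contra hne
      have h1 := hmin a ha x hxB (Walk.cons hac (p.takeUntil x hx'))
      rw [Walk.length_cons, Walk.length_cons] at h1
      have h2 := p.length_takeUntil_lt_length hx' hne
      omega
    · exact p.connected_induce_support

end sets

/-! ### the model -/

theorem exists_pi (a₀ : Fin 3 ⊕ Fin 3) : ∃ π : (Fin 3 ⊕ Fin 3) ≃ (Fin 3 ⊕ Fin 3),
    π (Sum.inl 0) = a₀ ∧ ∀ a b, K33.Adj a b → K33.Adj (π a) (π b) := by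
  rcases a₀ with i | i
  · refine ⟨Equiv.sumCongr (Equiv.swap 0 i) (Equiv.refl _), by simp, ?_⟩
    rintro (a | a) (b | b) h
    · simp at h
    · exact Or.inl ⟨rfl, rfl⟩
    · exact Or.inr ⟨rfl, rfl⟩
    · simp at h
  · refine ⟨(Equiv.sumCongr (Equiv.swap 0 i) (Equiv.refl _)).trans (Equiv.sumComm _ _),
      by simp, ?_⟩
    rintro (a | a) (b | b) h
    · simp at h
    · exact Or.inr ⟨rfl, rfl⟩
    · exact Or.inl ⟨rfl, rfl⟩
    · simp at h

theorem grid_connected {r : ℕ} (hr : 1 ≤ r) : (grid r).Connected := by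
  obtain ⟨n, rfl⟩ : ∃ n, r = n + 1 := ⟨r - 1, by omega⟩
  exact (pathGraph_connected n).boxProd (pathGraph_connected n)

theorem corner_mem {r : ℕ} (hr : 1 ≤ r) : ((⟨0, hr⟩, ⟨0, hr⟩) : Fin r × Fin r) ∈ bd r := Or.inl rfl

section model

variable {V : Type} {G : SimpleGraph V} {r : ℕ}
  {μ : (Fin 3 ⊕ Fin 3) ⊕ Option (Fin 2 × (Fin r × Fin r)) → Set V}

/-- the union of the branch sets of `none` and of the copy `c` -/
def QQ (μ : (Fin 3 ⊕ Fin 3) ⊕ Option (Fin 2 × (Fin r × Fin r)) → Set V) (c : Fin 2) : Set V :=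
  μ (Sum.inr none) ∪ ⋃ z, μ (Sum.inr (some (c, z)))

theorem QQ_connected (hr : 1 ≤ r) (h1 : ∀ a, (G.induce (μ a)).Connected)
    (h3 : ∀ a b, (K33 ⊕g hub 2 r).Adj a b → ∃ x ∈ μ a, ∃ y ∈ μ b, G.Adj x y) (c : Fin 2) :
    (G.induce (QQ μ c)).Connected := by
  -- the copy is connected
  set U : Set V := ⋃ z, μ (Sum.inr (some (c, z))) with hU
  have hsub : ∀ z, μ (Sum.inr (some (c, z))) ⊆ U := fun z =>
    Set.subset_iUnion (fun z => μ (Sum.inr (some (c, z)))) z
  have hin : ∀ z (u v : V) (hu : u ∈ μ (Sum.inr (some (c, z)))) (hv : v ∈ μ (Sum.inr (some (c, z)))),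
      (G.induce U).Reachable ⟨u, hsub z hu⟩ ⟨v, hsub z hv⟩ := by
    intro z u v hu hv
    exact ((h1 _).preconnected ⟨u, hu⟩ ⟨v, hv⟩).map (induceHomOfLE G (hsub z)).toHom
  have hwalk : ∀ (z z' : Fin r × Fin r) (w : (grid r).Walk z z') (u v : V)
      (hu : u ∈ μ (Sum.inr (some (c, z)))) (hv : v ∈ μ (Sum.inr (some (c, z')))),
      (G.induce U).Reachable ⟨u, hsub z hu⟩ ⟨v, hsub z' hv⟩ := by
    intro z z' w
    induction w with
    | nil => exact hin _
    | @cons a b d hab _ ih =>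
      intro u v hu hv
      have hadj : (K33 ⊕g hub 2 r).Adj (Sum.inr (some (c, a))) (Sum.inr (some (c, b))) := by
        show (hub 2 r).Adj (some (c, a)) (some (c, b))
        show ((⊥ : SimpleGraph (Fin 2)) □ grid r).Adj (c, a) (c, b)
        rw [boxProd_adj]
        exact Or.inr ⟨hab, rfl⟩
      obtain ⟨p, hp, q, hq, hpq⟩ := h3 _ _ hadj
      refine (hin a u p hu hp).trans (Reachable.trans ?_ (ih q v hq hv))
      exact Adj.reachable (show (G.induce U).Adj ⟨p, hsub a hp⟩ ⟨q, hsub b hq⟩ from hpq)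
  have hUc : (G.induce U).Connected := by
    obtain ⟨⟨v0, hv0⟩⟩ := (h1 (Sum.inr (some (c, (⟨0, hr⟩, ⟨0, hr⟩))))).nonempty
    have : Nonempty U := ⟨⟨v0, hsub _ hv0⟩⟩
    refine ⟨fun u v => ?_⟩
    obtain ⟨u, hu⟩ := u
    obtain ⟨v, hv⟩ := v
    obtain ⟨z, hz⟩ := Set.mem_iUnion.1 hu
    obtain ⟨z', hz'⟩ := Set.mem_iUnion.1 hv
    obtain ⟨w⟩ := (grid_connected hr).preconnected z z'
    exact hwalk z z' w u v hz hz'
  have hadj : (K33 ⊕g hub 2 r).Adj (Sum.inr none)
      (Sum.inr (some (c, (⟨0, hr⟩, ⟨0, hr⟩)))) := corner_mem hr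
  obtain ⟨p, hp, q, hq, hpq⟩ := h3 _ _ hadj
  exact conn_union (h1 _) hUc ⟨p, hp, q, hsub _ hq, hpq⟩

end model

/-- **[LK]** -/
theorem lk {V : Type} {G : SimpleGraph V} {r : ℕ} (hr : 1 ≤ r) (hG : G.Connected)
    (h : IsMinor (K33 ⊕g hub 2 r) G) : IsMinor (jj r) G := by
  classical
  obtain ⟨μ, h1, h2, h3⟩ := h
  have hne : ∀ a, (μ a).Nonempty := fun a => by
    obtain ⟨⟨v, hv⟩⟩ := (h1 a).nonempty
    exact ⟨v, hv⟩
  set A : Set V := ⋃ a, μ (Sum.inl a) with hA
  set B : Set V := ⋃ o, μ (Sum.inr o) with hB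
  have hAB : Disjoint A B := by
    rw [Set.disjoint_left]
    intro x hx hx'
    obtain ⟨a, ha⟩ := Set.mem_iUnion.1 hx
    obtain ⟨o, ho⟩ := Set.mem_iUnion.1 hx'
    exact Set.disjoint_left.1 (h2 _ _ (by simp)) ha ho
  have hAn : A.Nonempty := (hne (Sum.inl (Sum.inl 0))).mono
    (Set.subset_iUnion (fun a => μ (Sum.inl a)) (Sum.inl 0))
  have hBn : B.Nonempty := (hne (Sum.inr none)).mono
    (Set.subset_iUnion (fun o => μ (Sum.inr o)) none)
  obtain ⟨a, ha, P, hPA, ⟨b, hbP, hbB, hb⟩, hPc, x, hxP, hax⟩ := exists_link hG hAn hBn hAB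
  obtain ⟨a₀, ha₀⟩ := Set.mem_iUnion.1 ha
  obtain ⟨o, ho⟩ := Set.mem_iUnion.1 hbB
  obtain ⟨c', hc'⟩ : ∃ c' : Fin 2, b ∈ QQ μ c' := by
    rcases o with _ | ⟨d, z⟩
    · exact ⟨0, Or.inl ho⟩
    · exact ⟨d, Or.inr (Set.mem_iUnion.2 ⟨z, ho⟩)⟩
  obtain ⟨c, hc⟩ : ∃ c : Fin 2, c ≠ c' := ⟨c' + 1, by fin_cases c' <;> decide⟩
  obtain ⟨π, hπ0, hπ⟩ := exists_pi a₀
  have hQc := QQ_connected hr h1 h3 c'
  -- disjointness from the other branch sets
  have hQA : ∀ a, Disjoint (QQ μ c') (μ (Sum.inl a)) := by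
    intro a
    rw [Set.disjoint_left]
    rintro y (hy | hy) hy'
    · exact Set.disjoint_left.1 (h2 _ _ (by simp)) hy hy'
    · obtain ⟨z, hz⟩ := Set.mem_iUnion.1 hy
      exact Set.disjoint_left.1 (h2 _ _ (by simp)) hz hy'
  have hQB : ∀ z, Disjoint (QQ μ c') (μ (Sum.inr (some (c, z)))) := by
    intro z
    rw [Set.disjoint_left]
    rintro y (hy | hy) hy'
    · exact Set.disjoint_left.1 (h2 _ _ (by simp)) hy hy'
    · obtain ⟨z', hz'⟩ := Set.mem_iUnion.1 hy
      refine Set.disjoint_left.1 (h2 _ _ ?_) hz' hy'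
      intro he
      simp only [Sum.inr.injEq, Option.some.injEq, Prod.mk.injEq] at he
      exact hc he.1.symm
  have hPA' : ∀ a, Disjoint P (μ (Sum.inl a)) := fun a =>
    hPA.mono_right (Set.subset_iUnion (fun a => μ (Sum.inl a)) a)
  have hPB : ∀ z, Disjoint P (μ (Sum.inr (some (c, z)))) := by
    intro z
    rw [Set.disjoint_left]
    intro y hy hy'
    have h4 := hb y hy (Set.mem_iUnion.2 ⟨some (c, z), hy'⟩)
    rw [h4] at hy'
    exact Set.disjoint_left.1 (hQB z) hc' hy'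
  set Z : Set V := P ∪ QQ μ c' with hZ
  have hZA : ∀ a, Disjoint Z (μ (Sum.inl a)) := fun a => (hPA' a).union_left (hQA a)
  have hZB : ∀ z, Disjoint Z (μ (Sum.inr (some (c, z)))) := fun z => (hPB z).union_left (hQB z)
  have hZc : (G.induce (μ (Sum.inl a₀) ∪ Z)).Connected :=
    conn_union (h1 _) (conn_union' hPc hQc ⟨b, hbP, hc'⟩) ⟨a, ha₀, x, Or.inl hxP, hax⟩
  -- the model
  let ν : (Fin 3 ⊕ Fin 3) ⊕ (Fin r × Fin r) → Set V := fun p => match p with
    | Sum.inl a => if a = Sum.inl 0 then μ (Sum.inl a₀) ∪ Z else μ (Sum.inl (π a))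
    | Sum.inr z => μ (Sum.inr (some (c, z)))
  have hν0 : ν (Sum.inl (Sum.inl 0)) = μ (Sum.inl a₀) ∪ Z := if_pos rfl
  have hν1 : ∀ a, a ≠ Sum.inl 0 → ν (Sum.inl a) = μ (Sum.inl (π a)) := fun a ha => if_neg ha
  have hsub : ∀ a, μ (Sum.inl (π a)) ⊆ ν (Sum.inl a) := by
    intro a
    by_cases ha : a = Sum.inl 0
    · rw [ha, hν0, hπ0]
      exact Set.subset_union_left
    · rw [hν1 a ha]
  have hle : ∀ a, ν (Sum.inl a) ⊆ μ (Sum.inl (π a)) ∪ (if a = Sum.inl 0 then Z else ∅) := by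
    intro a
    by_cases ha : a = Sum.inl 0
    · rw [ha, hν0, hπ0, if_pos rfl]
    · rw [hν1 a ha]
      exact Set.subset_union_left
  refine ⟨ν, ?_, ?_, ?_⟩
  · rintro (a | z)
    · by_cases ha : a = Sum.inl 0
      · rw [ha, hν0]
        exact hZc
      · rw [hν1 a ha]
        exact h1 _
    · exact h1 _
  · have key : ∀ p q, p ≠ q → (p = Sum.inl (Sum.inl 0) ∨ q ≠ Sum.inl (Sum.inl 0)) →
        Disjoint (ν p) (ν q) := by
      rintro (a | z) (a' | z') hne hor
      · have hne' : a ≠ a' := fun h => hne (by rw [h])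
        have ha' : a' ≠ Sum.inl 0 := by
          rcases hor with h | h
          · rintro rfl
            exact hne (by rw [h])
          · exact fun he => h (by rw [he])
        rw [hν1 a' ha']
        refine Disjoint.mono_left (hle a) (Disjoint.union_left ?_ ?_)
        · exact h2 _ _ fun h => hne' (π.injective (Sum.inl_injective h))
        · split_ifs
          · exact hZA _
          · exact Set.empty_disjoint _
      · refine Disjoint.mono_left (hle a) (Disjoint.union_left ?_ ?_)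
        · exact h2 _ _ (by simp)
        · split_ifs
          · exact hZB _
          · exact Set.empty_disjoint _
      · have ha' : a' ≠ Sum.inl 0 := by
          rcases hor with h | h
          · exact absurd h (by simp)
          · exact fun he => h (by rw [he])
        rw [hν1 a' ha']
        exact h2 _ _ (by simp)
      · exact h2 _ _ fun h => hne (by
          simp only [Sum.inr.injEq, Option.some.injEq, Prod.mk.injEq, true_and] at h
          rw [h])
    intro p q hpq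
    by_cases hq : q = Sum.inl (Sum.inl 0)
    · exact (key q p hpq.symm (Or.inl hq)).symm
    · exact key p q hpq (Or.inr hq)
  · have hrel : ∀ p q, (p = Sum.inl (Sum.inl 0) ∧ ∃ z ∈ bd r, q = Sum.inr z) →
        ∃ x ∈ ν p, ∃ y ∈ ν q, G.Adj x y := by
      rintro p q ⟨rfl, z, hz, rfl⟩
      have hadj : (K33 ⊕g hub 2 r).Adj (Sum.inr none) (Sum.inr (some (c, z))) := hz
      obtain ⟨x, hx, y, hy, hxy⟩ := h3 _ _ hadj
      refine ⟨x, ?_, y, hy, hxy⟩
      rw [hν0]
      exact Or.inr (Or.inr (Or.inl hx))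
    intro p q hpq
    rcases hpq with hpq | hpq
    · rcases p with a | z <;> rcases q with a' | z'
      · obtain ⟨x, hx, y, hy, hxy⟩ := h3 (Sum.inl (π a)) (Sum.inl (π a')) (hπ a a' hpq)
        exact ⟨x, hsub a hx, y, hsub a' hy, hxy⟩
      · exact absurd hpq (by simp)
      · exact absurd hpq (by simp)
      · have hg : (grid r).Adj z z' := hpq
        have hadj : (K33 ⊕g hub 2 r).Adj (Sum.inr (some (c, z))) (Sum.inr (some (c, z'))) := by
          show ((⊥ : SimpleGraph (Fin 2)) □ grid r).Adj (c, z) (c, z')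
          rw [boxProd_adj]
          exact Or.inr ⟨hg, rfl⟩
        exact h3 _ _ hadj
    · rw [SimpleGraph.fromRel_adj] at hpq
      rcases hpq.2 with hr' | hr'
      · exact hrel p q hr'
      · obtain ⟨x, hx, y, hy, hxy⟩ := hrel q p hr'
        exact ⟨y, hy, x, hx, hxy.symm⟩

end Vale.Agent.P235.H578
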