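import Vale.Agent.P235.H141.JDefs2
import Vale.Agent.P235.H578.LK

/-! # `[SM]` and the literal `LinkStmt` (helper578) -/

namespace Vale.Agent.P235.H578

open SimpleGraph Vale.Agent.P235 Vale.Agent.P235.H134 Vale.Agent.P235.H56 Vale.Agent.P235.H141
open Vale.Agent.P235.H341W (capG)

/-- the image of a connected set under a homomorphism is connected -/
theorem connected_image {A B : Type} {K : SimpleGraph A} {H : SimpleGraph B} (f : K →g H)
    {S : Set A} (hS : (K.induce S).Connected) : (H.induce (f '' S)).Connected := by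
  obtain ⟨⟨a0, ha0⟩⟩ := hS.nonempty
  have : Nonempty (f '' S : Set B) := ⟨⟨f a0, a0, ha0, rfl⟩⟩
  let g : K.induce S →g H.induce (f '' S) :=
    { toFun := fun x => ⟨f x.1, x.1, x.2, rfl⟩
      map_rel' := fun {x y} h => f.map_adj h }
  refine ⟨?_⟩
  rintro ⟨_, a, ha, rfl⟩ ⟨_, b, hb, rfl⟩
  exact (hS.preconnected ⟨a, ha⟩ ⟨b, hb⟩).map g

theorem sumMonoStmt : SumMonoStmt := by
  rintro A B C K H H' ⟨μ, h1, h2, h3⟩
  let f : H' →g (K ⊕g H') := { toFun := Sum.inr, map_rel' := fun {x y} h => h }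
  refine ⟨fun p => match p with
    | Sum.inl a => {Sum.inl a}
    | Sum.inr b => f '' μ b, ?_, ?_, ?_⟩
  · rintro (a | b)
    · exact Connected.mk (Preconnected.of_subsingleton)
    · exact connected_image f (h1 b)
  · rintro (a | b) (a' | b') hne
    · rw [Set.disjoint_singleton]
      exact fun h => hne (by rw [Sum.inl_injective h])
    · rw [Set.disjoint_singleton_left]
      rintro ⟨x, -, hx⟩
      exact absurd hx (by simp [f])
    · rw [Set.disjoint_singleton_right]
      rintro ⟨x, -, hx⟩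
      exact absurd hx (by simp [f])
    · have hb : b ≠ b' := fun h => hne (by rw [h])
      exact (Set.disjoint_image_iff Sum.inr_injective).2 (h2 b b' hb)
  · rintro (a | b) (a' | b') hab
    · exact ⟨_, rfl, _, rfl, hab⟩
    · exact absurd hab (by simp)
    · exact absurd hab (by simp)
    · obtain ⟨x, hx, y, hy, hxy⟩ := h3 b b' hab
      exact ⟨_, ⟨x, hx, rfl⟩, _, ⟨y, hy, rfl⟩, hxy⟩

theorem mono_left {A V : Type} {H H' : SimpleGraph A} {G : SimpleGraph V} (h : H ≤ H')
    (hm : IsMinor H' G) : IsMinor H G := by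
  obtain ⟨μ, h1, h2, h3⟩ := hm
  exact ⟨μ, h1, h2, fun a b hab => h3 a b (h hab)⟩

theorem jnd_le_jj (r : ℕ) : jnd r ≤ jj r := by
  refine sup_le_sup_left (fun a b h => ?_) _
  rw [fromRel_adj] at h ⊢
  refine ⟨h.1, ?_⟩
  rcases h.2 with ⟨ha, x, hx, h1, -⟩ | ⟨ha, x, hx, h1, -⟩
  · exact Or.inl ⟨ha, x, Or.inl h1, hx⟩
  · exact Or.inr ⟨ha, x, Or.inl h1, hx⟩

theorem linkStmt : LinkStmt := fun _ _ _ _ hr hG h => 
  mono_left (jnd_le_jj _) (lk hr hG h)

end Vale.Agent.P235.H578
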