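import Vale.Agent.P235.H578.OneAsm
import Vale.Agent.P235.H134.Grid.Final

/-!
P235 (helper578 for helper750): the excluded grid theorem plugged in.
-/

set_option autoImplicit false

namespace Vale.Agent.P235.H578

open SimpleGraph Vale.Agent.P235 Vale.Agent.P235.H134 Vale.Agent.P235.H606 Vale.Agent.P235.H750

theorem gridFree : GridFree := by
  intro n
  obtain ⟨w, hw⟩ := excludedGrid n
  obtain ⟨C, hC⟩ := H957.tw_bounded w
  refine ⟨max C 1, le_max_right _ _, fun V _ G hG h => (hC V G hG ?_).mono (le_max_left _ _)⟩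
  by_contra hcon
  exact h (hw V G hG hcon)

/-- **(ONE-a)** -/
theorem oneA (hN : NestStmt) : OneAStmt := oneA_of gridFree hN

end Vale.Agent.P235.H578
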