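import Vale.Agent.P235.H578.OneA

/-!
P235 (helper578 for helper750): `OneStmt` from the two halves.
-/

set_option autoImplicit false

namespace Vale.Agent.P235.H578

open SimpleGraph Vale.Agent.P235 Vale.Agent.P235.H134 Vale.Agent.P235.H606 Vale.Agent.P235.H750

theorem starIn_mono {V : Type} {G : SimpleGraph V} {N : ℕ} {P0 : Set V → Prop} {A B : Set V}
    (hAB : A ⊆ B) (h : StarIn G N P0 A) : StarIn G N P0 B := by
  obtain ⟨Z, L, h1, h2, h3⟩ := h
  exact ⟨Z, L, h1.trans hAB, fun i => (h2 i).trans hAB, h3⟩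

/-- **(ONE)** from `NestStmt` and the two halves -/
theorem one_of (hN : NestStmt) (hA : OneAStmt) (hB : OneBStmt) : OneStmt := by
  intro W _ H S T v hS hT hST hST' hadj hSc hTc hRT h hRS r
  obtain ⟨K, hK1, hK⟩ := hN
  obtain ⟨C, hC1, hC⟩ := hA T (H.induce T) ⟨v, hT⟩ (Nat.card W + 3) r hTc hRT
  obtain ⟨C', hC'⟩ := hRS r
  refine ⟨K * ((r : ℝ) + 2) ^ 9 * (C + max C' 1), fun V _ G b hG hNo hno => ?_⟩
  refine hK r C (max C' 1) V G (StarIn G (Nat.card W + 3) (RAll (H.induce T) ⟨v, hT⟩ G)) hC1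
    (le_max_right _ _) hG hNo (fun A B hAB h => starIn_mono hAB h)
    (fun A hAc hAs => hC V G hG hNo A hAc hAs) ?_
  intro X _ Q p hQ hfib hQ1 _
  refine (hC' X Q (p b) hQ (fun hm => hNo ?_) fun hm => hno ?_).mono (le_max_left _ _)
  · refine H56.minor_trans hm ⟨fun a => {x | p x = a}, fun a => (hfib a).1, fun a b hab => ?_,
      fun a b hab => ?_⟩
    · rw [Set.disjoint_left]
      intro x hx hx'
      exact hab (hx.symm.trans hx')
    · obtain ⟨u, v, huv, hu, hv⟩ := hQ1 a b hab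
      exact ⟨u, hu, v, hv, huv⟩
  · exact hB W H S T v hS hT hST hST' hadj V X G Q p b h hG hfib hQ1 hm

end Vale.Agent.P235.H578
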