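import Vale.Agent.P235.H578.Up

/-!
# `[COL]` (helper578 for helper830): a model of `K_{3,3}` in the collapse with the branch set
`{none}` gives `Q r`
-/

namespace Vale.Agent.P235.H578

open SimpleGraph Vale.Agent.P235.H134 Vale.Agent.P235.H56 Vale.Agent.P235.H141
open Vale.Agent.P235.H830

section down
variable {V : Type} {G : SimpleGraph V} {B : Set V} {X : Fin 3 → Set V}

/-- the old vertices of a set of vertices of the collapse -/
def dwn (B : Set V) (S : Set ({v : V // v ∉ B} ⊕ Option (Fin 3))) : Set V :=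
  {v | ∃ hv : v ∉ B, Sum.inl ⟨v, hv⟩ ∈ S}

theorem dwn_disj {S : Set ({v : V // v ∉ B} ⊕ Option (Fin 3))} {T : Set V} (hT : T ⊆ B) :
    Disjoint (dwn B S) T := by
  rw [Set.disjoint_left]
  rintro v ⟨hv, -⟩ h
  exact hv (hT h)

theorem dwn_disj' {S T : Set ({v : V // v ∉ B} ⊕ Option (Fin 3))} (h : Disjoint S T) :
    Disjoint (dwn B S) (dwn B T) := by
  rw [Set.disjoint_left]
  rintro v ⟨hv, h1⟩ ⟨_, h2⟩
  exact Set.disjoint_left.1 h h1 h2

theorem dwn_conn {S : Set ({v : V // v ∉ B} ⊕ Option (Fin 3))}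
    (hS : ((col G B X).induce S).Connected) (ho : ∀ o, Sum.inr o ∉ S) :
    (G.induce (dwn B S)).Connected := by
  have hex : ∀ p : S, ∃ v : dwn B S, ∃ hv : v.1 ∉ B, p.1 = Sum.inl ⟨v.1, hv⟩ := by
    rintro ⟨p | o, hp⟩
    · exact ⟨⟨p.1, p.2, hp⟩, p.2, rfl⟩
    · exact absurd hp (ho o)
  choose f hf1 hf2 using hex
  let g : (col G B X).induce S →g G.induce (dwn B S) :=
    { toFun := f
      map_rel' := fun {p q} h => by
        have h' : (col G B X).Adj p.1 q.1 := h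
        rw [hf2 p, hf2 q] at h'
        exact col_inl.1 h' }
  have hg : ∀ v : dwn B S, ∃ p, g p = v := by
    rintro ⟨v, hv, h⟩
    refine ⟨⟨_, h⟩, ?_⟩
    have h1 := hf2 ⟨_, h⟩
    have h2 := congrArg Subtype.val (Sum.inl.inj h1)
    exact Subtype.ext h2.symm
  obtain ⟨p₀⟩ := hS.nonempty
  have : Nonempty (dwn B S) := ⟨g p₀⟩
  refine ⟨fun v w => ?_⟩
  obtain ⟨p, rfl⟩ := hg v
  obtain ⟨q, rfl⟩ := hg w
  exact (hS.preconnected p q).map g

theorem dwn_conn' {S : Set ({v : V // v ∉ B} ⊕ Option (Fin 3))} {i : Fin 3}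
    (hS : ((col G B X).induce S).Connected) (hi : Sum.inr (some i) ∈ S)
    (ho : ∀ o, Sum.inr o ∈ S → o = some i) (hX : (G.induce (X i)).Connected) :
    (G.induce (X i ∪ dwn B S)).Connected := by
  obtain ⟨⟨x₀, hx₀⟩⟩ := hX.nonempty
  have hXr : ∀ x (hx : x ∈ X i), (G.induce (X i ∪ dwn B S)).Reachable
      ⟨x₀, Or.inl hx₀⟩ ⟨x, Or.inl hx⟩ := fun x hx =>
    (hX.preconnected ⟨x₀, hx₀⟩ ⟨x, hx⟩).map
      (SimpleGraph.induceHomOfLE G (Set.subset_union_left : X i ⊆ X i ∪ dwn B S)).toHom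
  have key : ∀ (p q : S), ((col G B X).induce S).Walk p q →
      (∀ v (hv : v ∈ dwn B S), (∃ hv : v ∉ B, p.1 = Sum.inl ⟨v, hv⟩) →
        (G.induce (X i ∪ dwn B S)).Reachable ⟨x₀, Or.inl hx₀⟩ ⟨v, Or.inr hv⟩) →
      ∀ v (hv : v ∈ dwn B S), (∃ hv : v ∉ B, q.1 = Sum.inl ⟨v, hv⟩) →
        (G.induce (X i ∪ dwn B S)).Reachable ⟨x₀, Or.inl hx₀⟩ ⟨v, Or.inr hv⟩ := by
    intro p q w
    induction w with
    | nil => exact fun h => h
    | cons h w ih =>
      rename_i a b c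
      intro ha
      refine ih fun v hv hb => ?_
      obtain ⟨hvB, hb⟩ := hb
      have h' : (col G B X).Adj a.1 b.1 := h
      rcases a with ⟨a | o, haS⟩
      · have h1 := ha a.1 ⟨a.2, haS⟩ ⟨a.2, rfl⟩
        rw [hb] at h'
        have h2 : G.Adj a.1 v := col_inl.1 h'
        exact h1.trans (Adj.reachable (show (G.induce (X i ∪ dwn B S)).Adj
          ⟨a.1, Or.inr ⟨a.2, haS⟩⟩ ⟨v, Or.inr hv⟩ from h2))
      · have h1 := ho o haS
        subst h1
        rw [hb] at h'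
        obtain ⟨x, hx, h2⟩ := col_some.1 h'.symm
        exact (hXr x hx).trans (Adj.reachable (show (G.induce (X i ∪ dwn B S)).Adj
          ⟨x, Or.inl hx⟩ ⟨v, Or.inr hv⟩ from h2.symm))
  have hall : ∀ u : ↥(X i ∪ dwn B S), (G.induce (X i ∪ dwn B S)).Reachable
      ⟨x₀, Or.inl hx₀⟩ u := by
    rintro ⟨u, hu | hu⟩
    · exact hXr u hu
    · obtain ⟨hB, hS'⟩ := hu
      obtain ⟨w⟩ := hS.preconnected ⟨_, hi⟩ ⟨_, hS'⟩
      exact key _ _ w (fun v _ hv => absurd hv.choose_spec (by simp)) u ⟨hB, hS'⟩ ⟨hB, rfl⟩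
  have : Nonempty ↥(X i ∪ dwn B S) := ⟨⟨x₀, Or.inl hx₀⟩⟩
  exact ⟨fun u v => (hall u).symm.trans (hall v)⟩

end down

/-- the other vertices of `K33`, seen from `a` -/
theorem k33_split (a : Fin 3 ⊕ Fin 3) : ∃ (b : Fin 3 → Fin 3 ⊕ Fin 3) (c : Fin 2 → Fin 3 ⊕ Fin 3),
    (∀ k, K33.Adj a (b k)) ∧ (∀ k l, K33.Adj (b k) (c l)) ∧ Function.Injective b ∧
      Function.Injective c ∧ (∀ k, b k ≠ a) ∧ (∀ l, c l ≠ a) ∧ ∀ k l, b k ≠ c l := by
  rcases a with a | a
  · refine ⟨fun k => Sum.inr k, fun l => Sum.inl (a.succAbove l), fun k => ?_, fun k l => ?_,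
      Sum.inr_injective, fun l l' h => ?_, fun k => by simp, fun l => ?_, fun k l => by simp⟩
    · simp [K33]
    · simp [K33]
    · exact Fin.succAbove_right_injective (Sum.inl.inj h)
    · intro h
      exact Fin.succAbove_ne a l (Sum.inl.inj h)
  · refine ⟨fun k => Sum.inl k, fun l => Sum.inr (a.succAbove l), fun k => ?_, fun k l => ?_,
      Sum.inl_injective, fun l l' h => ?_, fun k => by simp, fun l => ?_, fun k l => by simp⟩
    · simp [K33]
    · simp [K33]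
    · exact Fin.succAbove_right_injective (Sum.inr.inj h)
    · intro h
      exact Fin.succAbove_ne a l (Sum.inr.inj h)

/-- (COL) -/
theorem colStmt : ColStmt := by
  classical
  intro V G B X r Y hXc hXd hXt hXB hYc hYd hYt hYB hYX hXY hmod
  obtain ⟨ν, a, hν, hνa⟩ := hmod
  obtain ⟨b, c, hab, hbc, hb, hc, hba, hca, hbc'⟩ := k33_split a
  -- the index of the `some` in each opposite set
  have ht : ∀ k, ∃ i, Sum.inr (some i) ∈ ν (b k) := by
    intro k
    obtain ⟨x, hx, y, hy, hxy⟩ := hν.adj a (b k) (hab k)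
    rw [hνa] at hx
    rw [Set.mem_singleton_iff.1 hx] at hxy
    obtain ⟨i, rfl⟩ := col_none hxy
    exact ⟨i, hy⟩
  choose t ht using ht
  have htinj : Function.Injective t := by
    intro k k' h
    by_contra hne
    have h1 := ht k
    rw [h] at h1
    exact Set.disjoint_left.1 (hν.disj (b k) (b k') fun e => hne (hb e)) h1 (ht k')
  have htb : Function.Bijective t := Finite.injective_iff_bijective.1 htinj
  obtain ⟨s, hs⟩ : ∃ s : Fin 3 → Fin 3, ∀ i, t (s i) = i :=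
    ⟨fun i => (htb.2 i).choose, fun i => (htb.2 i).choose_spec⟩
  have hsinj : Function.Injective s := fun i j h => by rw [← hs i, ← hs j, h]
  have hmem : ∀ i, Sum.inr (some i) ∈ ν (b (s i)) := by
    intro i
    have := ht (s i)
    rwa [hs i] at this
  have hnone : ∀ d, d ≠ a → Sum.inr none ∉ ν d := by
    intro d hd h
    refine Set.disjoint_left.1 (hν.disj d a hd) h ?_
    rw [hνa]
    exact Set.mem_singleton _
  have honly : ∀ i o, Sum.inr o ∈ ν (b (s i)) → o = some i := by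
    intro i o ho
    rcases o with _ | j
    · exact absurd ho (hnone _ (hba _))
    · by_contra hne
      have hji : j ≠ i := fun e => hne (by rw [e])
      exact Set.disjoint_left.1 (hν.disj (b (s i)) (b (s j)) fun e =>
        hji (hsinj (hb e)).symm) ho (hmem j)
  have hcno : ∀ l o, Sum.inr o ∉ ν (c l) := by
    intro l o ho
    rcases o with _ | j
    · exact hnone _ (hca _) ho
    · exact Set.disjoint_left.1 (hν.disj (c l) (b (s j)) (hbc' _ _).symm) ho (hmem j)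
  let m : (Fin 3 ⊕ Fin 2) ⊕ (Fin r × Fin r) → Set V := fun p => match p with
    | Sum.inl (Sum.inl i) => X i ∪ dwn B (ν (b (s i)))
    | Sum.inl (Sum.inr l) => dwn B (ν (c l))
    | Sum.inr p => Y p
  have hbc1 : ∀ i l, ∃ x ∈ m (Sum.inl (Sum.inl i)), ∃ y ∈ m (Sum.inl (Sum.inr l)), G.Adj x y := by
    intro i l
    obtain ⟨x, hx, y, hy, hxy⟩ := hν.adj (b (s i)) (c l) (hbc _ _)
    rcases y with y | o
    · rcases x with x | o
      · exact ⟨x.1, Or.inr ⟨x.2, hx⟩, y.1, ⟨y.2, hy⟩, col_inl.1 hxy⟩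
      · have h1 := honly i o hx
        subst h1
        obtain ⟨x, hx', h⟩ := col_some.1 hxy.symm
        exact ⟨x, Or.inl hx', y.1, ⟨y.2, hy⟩, h.symm⟩
    · exact absurd hy (hcno l o)
  refine ⟨m, ?_, ?_, ?_⟩
  · rintro ((i | l) | p)
    · exact dwn_conn' (hν.conn _) (hmem i) (honly i) (hXc i)
    · exact dwn_conn (hν.conn _) (hcno l)
    · exact hYc p
  · have d1 : ∀ i j, i ≠ j → Disjoint (X i ∪ dwn B (ν (b (s i)))) (X j ∪ dwn B (ν (b (s j)))) := by
      intro i j hij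
      rw [Set.disjoint_union_left, Set.disjoint_union_right, Set.disjoint_union_right]
      refine ⟨⟨hXd i j hij, (dwn_disj (hXB i)).symm⟩, dwn_disj (hXB j),
        dwn_disj' (hν.disj _ _ fun e => hij (hsinj (hb e)))⟩
    have d2 : ∀ i l, Disjoint (X i ∪ dwn B (ν (b (s i)))) (dwn B (ν (c l))) := by
      intro i l
      rw [Set.disjoint_union_left]
      exact ⟨(dwn_disj (hXB i)).symm, dwn_disj' (hν.disj _ _ (hbc' _ _))⟩
    have d3 : ∀ i p, Disjoint (X i ∪ dwn B (ν (b (s i)))) (Y p) := by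
      intro i p
      rw [Set.disjoint_union_left]
      exact ⟨(hYX p i).symm, dwn_disj (hYB p)⟩
    have d4 : ∀ l p, Disjoint (dwn B (ν (c l))) (Y p) := fun l p => dwn_disj (hYB p)
    rintro ((i | l) | p) ((j | l') | q) hne
    · exact d1 i j fun e => hne (by rw [e])
    · exact d2 i l'
    · exact d3 i q
    · exact (d2 j l).symm
    · exact dwn_disj' (hν.disj _ _ fun e => hne (by rw [hc e]))
    · exact d4 l q
    · exact (d3 j p).symm
    · exact (d4 l' p).symm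
    · exact hYd p q fun e => hne (by rw [e])
  · have hrel : ∀ p q, ((∃ i j : Fin 3, i ≠ j ∧ p = Sum.inl (Sum.inl i) ∧ q = Sum.inl (Sum.inl j)) ∨
        (∃ (i : Fin 3) (j : Fin 2), p = Sum.inl (Sum.inl i) ∧ q = Sum.inl (Sum.inr j)) ∨
        (∃ (i : Fin 3) (x : Fin r × Fin r), x ∈ side r i ∧ p = Sum.inl (Sum.inl i) ∧
          q = Sum.inr x) ∨
        ∃ x y : Fin r × Fin r, (grid r).Adj x y ∧ p = Sum.inr x ∧ q = Sum.inr y) →
        ∃ x ∈ m p, ∃ y ∈ m q, G.Adj x y := by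
      rintro p q (⟨i, j, hij, rfl, rfl⟩ | ⟨i, l, rfl, rfl⟩ | ⟨i, x, hx, rfl, rfl⟩ |
        ⟨x, y, hxy, rfl, rfl⟩)
      · obtain ⟨x, hx, y, hy, h⟩ := hXt i j hij
        exact ⟨x, Or.inl hx, y, Or.inl hy, h⟩
      · exact hbc1 i l
      · obtain ⟨u, hu, v, hv, h⟩ := hXY i x hx
        exact ⟨u, Or.inl hu, v, hv, h⟩
      · exact hYt x y hxy
    intro p q hpq
    unfold Q at hpq
    rw [SimpleGraph.fromRel_adj] at hpq
    rcases hpq.2 with h | h
    · exact hrel p q h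
    · obtain ⟨x, hx, y, hy, h'⟩ := hrel q p h
      exact ⟨y, hy, x, hx, h'.symm⟩

end Vale.Agent.P235.H578
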