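import Vale.Agent.P235.H578.Up
import Vale.Agent.P235.H427.Pers

/-!
# `[FAIL]` (helper578 for helper830): the other side of a cut of the collapse
-/

namespace Vale.Agent.P235.H578

open SimpleGraph Vale.Agent.P235.H134 Vale.Agent.P235.H56 Vale.Agent.P235.H141
open Vale.Agent.P235.H830

theorem cross {V : Type} {G : SimpleGraph V} {B : Set V} {X : Fin 3 → Set V}
    {P : Set ({v : V // v ∉ B} ⊕ Option (Fin 3))} {Z : Set V} (hZ : (G.induce Z).Connected)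
    (hB : Disjoint Z B) (hS : ∀ v (hv : v ∉ B), v ∈ Z → Sum.inl ⟨v, hv⟩ ∉ nbr (col G B X) P)
    {x y : V} (hx : x ∈ Z) (hy : y ∈ Z) (hxB : x ∉ B) (hyB : y ∉ B)
    (h1 : Sum.inl ⟨x, hxB⟩ ∈ P) : Sum.inl ⟨y, hyB⟩ ∈ P := by
  by_contra h2
  obtain ⟨v, ⟨w, hw, rfl⟩, hv⟩ := H427.meets_nbr (G := col G B X) (up_conn hZ hB)
    (x := Sum.inl ⟨x, hxB⟩) (y := Sum.inl ⟨y, hyB⟩) ⟨⟨x, hxB⟩, hx, rfl⟩ h1 ⟨⟨y, hyB⟩, hy, rfl⟩ h2
  exact hS w.1 w.2 hw hv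

/-- (FAIL) -/
theorem failStmt : FailStmt := by
  classical
  intro V _ G B X μ hμ hB hXB hL
  unfold Lkd at hL
  push Not at hL
  obtain ⟨P, hP, hn, hno⟩ := hL
  have hfin : (nbr (col G B X) P).Finite := Set.toFinite _
  obtain ⟨i, hi⟩ : ∃ i : Fin 3, Sum.inr (some i) ∉ nbr (col G B X) P := by
    by_contra h
    push Not at h
    refine H427.three hn (fun i => Sum.inr (some i)) (fun i j hij => ?_) h
    exact Option.some.inj (Sum.inr.inj hij)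
  have hiP : Sum.inr (some i) ∈ P := by
    by_contra h
    refine hi ⟨h, Sum.inr none, hP, ?_⟩
    unfold col
    rw [SimpleGraph.fromRel_adj]
    exact ⟨by simp, Or.inl (Or.inr (Or.inr (Or.inr ⟨i, rfl, rfl⟩)))⟩
  let S : Set V := {v | ∃ hv : v ∉ B, Sum.inl ⟨v, hv⟩ ∈ nbr (col G B X) P}
  let D : Set V := {v | ∃ hv : v ∉ B, Sum.inl ⟨v, hv⟩ ∉ P ∧ Sum.inl ⟨v, hv⟩ ∉ nbr (col G B X) P}
  have hSB : Disjoint S B := by
    rw [Set.disjoint_left]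
    rintro v ⟨hv, -⟩
    exact hv
  refine ⟨S, D, i, ?_, hSB, ?_, ?_, ?_, ?_⟩
  · refine le_trans ?_ hn
    refine Set.ncard_le_ncard_of_injOn
      (fun v => if hv : v ∉ B then Sum.inl ⟨v, hv⟩ else Sum.inr none) ?_ ?_ hfin
    · rintro v ⟨hv, h⟩
      show (if hv : v ∉ B then Sum.inl ⟨v, hv⟩ else Sum.inr none : {v : V // v ∉ B} ⊕ _) ∈ _
      rw [dif_pos hv]
      exact h
    · rintro v ⟨hv, -⟩ w ⟨hw, -⟩ h
      simp only [dif_pos hv, dif_pos hw] at h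
      exact congrArg Subtype.val (Sum.inl.inj h)
  · rw [Set.disjoint_left]
    rintro v ⟨hv, -⟩
    exact hv
  · rintro v ⟨hvD, d, ⟨hdB, hdP, hdN⟩, hdv⟩
    by_cases hvB : v ∈ B
    · exact Or.inr hvB
    · left
      refine ⟨hvB, ?_⟩
      by_contra h
      by_cases hvP : (Sum.inl ⟨v, hvB⟩ : {v : V // v ∉ B} ⊕ Option (Fin 3)) ∈ P
      · exact hdN ⟨hdP, _, hvP, col_inl.2 hdv.symm⟩
      · exact hvD ⟨hvB, hvP, h⟩
  · intro a ha
    have hna := hno a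
    rw [Set.not_subset] at hna
    obtain ⟨_, ⟨u, hu, rfl⟩, huP⟩ := hna
    have hS' : ∀ v (hv : v ∉ B), v ∈ μ a → Sum.inl ⟨v, hv⟩ ∉ nbr (col G B X) P :=
      fun v hv hva h => Set.disjoint_left.1 ha hva ⟨hv, h⟩
    intro v hv
    have hvB : v ∉ B := fun h => Set.disjoint_left.1 (hB a) hv h
    exact ⟨hvB, fun h => huP (cross (hμ.conn a) (hB a) hS' hv hu hvB u.2 h), hS' v hvB hv⟩
  · intro Z hZ hZB hZS hZX
    have hS' : ∀ v (hv : v ∉ B), v ∈ Z → Sum.inl ⟨v, hv⟩ ∉ nbr (col G B X) P :=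
      fun v hv hva h => Set.disjoint_left.1 hZS hva ⟨hv, h⟩
    obtain ⟨z, hz, x, hx, hzx⟩ := hZX
    have hzB : z ∉ B := fun h => Set.disjoint_left.1 hZB hz h
    have hzP : Sum.inl ⟨z, hzB⟩ ∈ P := by
      by_contra h
      exact hS' z hzB hz ⟨h, _, hiP, (col_some.2 ⟨x, hx, hzx⟩).symm⟩
    rw [Set.disjoint_left]
    rintro v hv ⟨hvB, hvP, -⟩
    exact hvP (cross hZ hZB hS' hz hv hzB hvB hzP)

end Vale.Agent.P235.H578
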