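import Vale.Agent.P235.H830.QDefs

/-!
# `[UP]` (helper578 for helper830): models outside of `B` are models of the collapse
-/

namespace Vale.Agent.P235.H578

open SimpleGraph Vale.Agent.P235.H134 Vale.Agent.P235.H56 Vale.Agent.P235.H141
open Vale.Agent.P235.H830

section col
variable {V : Type} {G : SimpleGraph V} {B : Set V} {X : Fin 3 → Set V}

theorem col_inl {v w : {v : V // v ∉ B}} :
    (col G B X).Adj (Sum.inl v) (Sum.inl w) ↔ G.Adj v w := by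
  unfold col
  rw [SimpleGraph.fromRel_adj]
  constructor
  · rintro ⟨-, (⟨v', w', h, h1, h2⟩ | ⟨v', i, -, -, h⟩ | ⟨i, j, -, h, -⟩ | ⟨i, h, -⟩) |
      (⟨v', w', h, h1, h2⟩ | ⟨v', i, -, -, h⟩ | ⟨i, j, -, h, -⟩ | ⟨i, h, -⟩)⟩
    · rw [Sum.inl.inj h1, Sum.inl.inj h2]; exact h
    · exact absurd h (by simp)
    · exact absurd h (by simp)
    · exact absurd h (by simp)
    · rw [Sum.inl.inj h1, Sum.inl.inj h2]; exact h.symm
    · exact absurd h (by simp)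
    · exact absurd h (by simp)
    · exact absurd h (by simp)
  · intro h
    refine ⟨fun e => ?_, Or.inl (Or.inl ⟨v, w, h, rfl, rfl⟩)⟩
    rw [Sum.inl.inj e] at h
    exact G.loopless.irrefl _ h

theorem col_some {v : {v : V // v ∉ B}} {i : Fin 3} :
    (col G B X).Adj (Sum.inl v) (Sum.inr (some i)) ↔ ∃ x ∈ X i, G.Adj v x := by
  unfold col
  rw [SimpleGraph.fromRel_adj]
  constructor
  · rintro ⟨-, (⟨v', w', h, h1, h2⟩ | ⟨v', i', h, h1, h2⟩ | ⟨i, j, -, h, -⟩ | ⟨i, h, -⟩) |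
      (⟨v', w', h, h1, h2⟩ | ⟨v', i, -, h, -⟩ | ⟨i, j, -, -, h⟩ | ⟨i, -, h⟩)⟩
    · exact absurd h2 (by simp)
    · rw [Sum.inl.inj h1, Option.some.inj (Sum.inr.inj h2)]; exact h
    · exact absurd h (by simp)
    · exact absurd h (by simp)
    · exact absurd h1 (by simp)
    · exact absurd h (by simp)
    · exact absurd h (by simp)
    · exact absurd h (by simp)
  · intro h
    exact ⟨by simp, Or.inl (Or.inr (Or.inl ⟨v, i, h, rfl, rfl⟩))⟩

theorem col_none {y : {v : V // v ∉ B} ⊕ Option (Fin 3)}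
    (h : (col G B X).Adj (Sum.inr none) y) : ∃ i, y = Sum.inr (some i) := by
  unfold col at h
  rw [SimpleGraph.fromRel_adj] at h
  obtain ⟨-, (⟨v', w', -, h, -⟩ | ⟨v', i', -, h, -⟩ | ⟨i, j, -, h, -⟩ | ⟨i, -, h⟩) |
      (⟨v', w', -, -, h⟩ | ⟨v', i, -, -, h⟩ | ⟨i, j, -, -, h⟩ | ⟨i, -, h⟩)⟩ := h
  · exact absurd h (by simp)
  · exact absurd h (by simp)
  · exact absurd h (by simp)
  · exact ⟨i, h⟩
  · exact absurd h (by simp)
  · exact absurd h (by simp)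
  · exact absurd h (by simp)
  · exact absurd h (by simp)

theorem up_conn {S : Set V} (hS : (G.induce S).Connected) (hB : Disjoint S B) :
    ((col G B X).induce (up B S)).Connected := by
  have hn : ∀ v ∈ S, v ∉ B := fun v hv hv' => Set.disjoint_left.1 hB hv hv'
  let f : G.induce S →g (col G B X).induce (up B S) :=
    { toFun := fun x => ⟨Sum.inl ⟨x.1, hn x.1 x.2⟩, ⟨⟨x.1, hn x.1 x.2⟩, x.2, rfl⟩⟩
      map_rel' := fun {x y} h =>
         (col_inl (G := G) (B := B) (X := X) (v := ⟨x.1, hn x.1 x.2⟩)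
          (w := ⟨y.1, hn y.1 y.2⟩)).2 h }
  have hf : ∀ p : up B S, ∃ x : S, f x = p := by
    rintro ⟨p, ⟨v, hv⟩, h1, rfl⟩
    exact ⟨⟨v, h1⟩, rfl⟩
  obtain ⟨x₀⟩ := hS.nonempty
  have : Nonempty (up B S) := ⟨f x₀⟩
  refine ⟨fun p q => ?_⟩
  obtain ⟨x, rfl⟩ := hf p
  obtain ⟨y, rfl⟩ := hf q
  exact (hS.preconnected x y).map f

end col

/-- (UP) -/
theorem upStmt : UpStmt := by
  intro V G B X μ hμ hB
  refine ⟨fun a => up_conn (hμ.conn a) (hB a), fun a b hab => ?_, fun a b hab => ?_⟩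
  · rw [Set.disjoint_left]
    rintro p ⟨v, hv, rfl⟩ ⟨w, hw, h⟩
    rw [Sum.inl.inj h] at hv
    exact Set.disjoint_left.1 (hμ.disj a b hab) hv hw
  · obtain ⟨x, hx, y, hy, hxy⟩ := hμ.adj a b hab
    have hx' : x ∉ B := fun h => Set.disjoint_left.1 (hB a) hx h
    have hy' : y ∉ B := fun h => Set.disjoint_left.1 (hB b) hy h
    exact ⟨Sum.inl ⟨x, hx'⟩, ⟨⟨x, hx'⟩, hx, rfl⟩, Sum.inl ⟨y, hy'⟩, ⟨⟨y, hy'⟩, hy, rfl⟩,
      col_inl.2 hxy⟩

end Vale.Agent.P235.H578
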