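import Vale.Agent.P235.H56.RDefs
import Vale.Agent.P235.H578.OneAsm
import Vale.Agent.P235.H606.ADefs

/-!
P235 (helper578 for helper56), row ONE2: gluing at a vertex, relative to one rooted graph.
-/

set_option autoImplicit false

namespace Vale.Agent.P235.H578

open SimpleGraph Vale.Agent.P235 Vale.Agent.P235.H134 Vale.Agent.P235.H606 Vale.Agent.P235.H750

theorem minor_ind {V : Type} {G : SimpleGraph V} {A B : Set V} (hAB : A ⊆ B) :
    IsMinor (G.induce A) (G.induce B) := by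
  let m : A → B := fun a => ⟨a.1, hAB a.2⟩
  refine ⟨fun a => {m a}, fun a => H56.conn_single _ _, fun a b hab => ?_,
    fun a b hab => ⟨m a, rfl, m b, rfl, hab⟩⟩
  rw [Set.disjoint_singleton]
  intro h
  exact hab (Subtype.ext (congrArg (fun x : B => x.1) h))

theorem minor_ind2 {V : Type} {G : SimpleGraph V} {A : Set V} {D : Set A} :
    IsMinor ((G.induce A).induce D) (G.induce (Subtype.val '' D)) := by
  let m : D → (Subtype.val '' D : Set V) := fun a => ⟨a.1.1, ⟨a.1, a.2, rfl⟩⟩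
  refine ⟨fun a => {m a}, fun a => H56.conn_single _ _, fun a b hab => ?_,
    fun a b hab => ⟨m a, rfl, m b, rfl, hab⟩⟩
  rw [Set.disjoint_singleton]
  intro h
  exact hab (Subtype.ext (Subtype.ext
    (congrArg (fun x : (Subtype.val '' D : Set V) => x.1) h)))

/-- rooted minors of a quotient are rooted minors -/
theorem rminor_quot {U V X : Type} {F : SimpleGraph U} {f : U} {G : SimpleGraph V}
    {Q : SimpleGraph X} {p : V → X} {b : V} (hfib : ∀ a, (G.induce {v | p v = a}).Connected)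
    (hQ : ∀ x y, Q.Adj x y → ∃ u v, G.Adj u v ∧ p u = x ∧ p v = y)
    (h : H750.RMinor F f Q (p b)) : H750.RMinor F f G b := by
  obtain ⟨μ, h1, h2, h3, h4⟩ := h
  have e1 : ∀ x y, Q.Adj x y → ∃ u ∈ {v | p v = x}, ∃ w ∈ {v | p v = y}, G.Adj u w := by
    intro x y hxy
    obtain ⟨u, v, huv, hu, hv⟩ := hQ x y hxy
    exact ⟨u, hu, v, hv, huv⟩
  refine ⟨fun a => {v | p v ∈ μ a}, fun a => ?_, fun a b hab => ?_, fun a b hab => ?_, h4⟩
  · have h := biUnion_conn (ν := fun x => {v | p v = x}) hfib e1 (h1 a)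
    have he : (⋃ x ∈ μ a, {v | p v = x}) = {v | p v ∈ μ a} := by
      ext v
      simp
    rwa [he] at h
  · rw [Set.disjoint_left]
    intro v hv hv'
    exact Set.disjoint_left.1 (h2 a b hab) hv hv'
  · obtain ⟨x, hx, y, hy, hxy⟩ := h3 a b hab
    obtain ⟨u, v, huv, hu, hv⟩ := hQ x y hxy
    exact ⟨u, by rw [Set.mem_ofPred_eq, hu]; exact hx, v, by rw [Set.mem_ofPred_eq, hv]; exact hy,
      huv⟩

/-- a rooted minor at `y` inside `L`, entered through the connected set `B` off `L` -/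
theorem rminor_enter {U V : Type} {F : SimpleGraph U} {f : U} {G : SimpleGraph V} {L B : Set V}
    {b y z : V} (hy : y ∈ L) (hB : (G.induce B).Connected) (hb : b ∈ B) (hz : z ∈ B)
    (hzy : G.Adj z y) (hBL : Disjoint B L) (h : H750.RMinor F f (G.induce L) ⟨y, hy⟩) :
    H750.RMinor F f G b := by
  obtain ⟨μ, h1, h2, h3, h4⟩ := h
  have hsub : ∀ a, Subtype.val '' μ a ⊆ L := by
    rintro a _ ⟨x, -, rfl⟩
    exact x.2
  refine ⟨fun a => Subtype.val '' μ a ∪ {x | a = f ∧ x ∈ B}, fun a => ?_, fun a c hac => ?_,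
    fun a c hac => ?_, Or.inr ⟨rfl, hb⟩⟩
  · show (G.induce (Subtype.val '' μ a ∪ {x | a = f ∧ x ∈ B})).Connected
    by_cases ha : a = f
    · have he : {x | a = f ∧ x ∈ B} = B := by
        ext x
        simp [ha]
      rw [he]
      refine conn_union (push_conn (h1 a)) hB ⟨y, ⟨⟨y, hy⟩, ?_, rfl⟩, z, hz, hzy.symm⟩
      rw [ha]
      exact h4
    · have he : {x | a = f ∧ x ∈ B} = ∅ := by
        ext x
        simp [ha]
      rw [he, Set.union_empty]
      exact push_conn (h1 a)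
  · rw [Set.disjoint_left]
    rintro x (hx | ⟨ha, hx⟩) (hx' | ⟨hc, hx'⟩)
    · exact Set.disjoint_left.1
        ((Set.disjoint_image_iff Subtype.val_injective).2 (h2 a c hac)) hx hx'
    · exact Set.disjoint_left.1 hBL hx' (hsub a hx)
    · exact Set.disjoint_left.1 hBL hx (hsub c hx')
    · exact hac (ha.trans hc.symm)
  · obtain ⟨x, hx, w, hw, hxw⟩ := h3 a c hac
    exact ⟨_, Or.inl ⟨x, hx, rfl⟩, _, Or.inl ⟨w, hw, rfl⟩, hxw⟩

/-- **(ONE2)** -/
theorem one2_of (hN : NestStmt) (hA : H12.AllStarStmt) (hM : MonoStmt) (hB : H56.OneB2Stmt) :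
    H56.One2Stmt := by
  intro U W _ _ F f H S T v hS hT hST hST' hadj hSc hTc hRT h hRS r
  obtain ⟨K, hK1, hK⟩ := hN
  obtain ⟨CT, hCT⟩ := hRT r
  obtain ⟨CS, hCS⟩ := hRS r
  obtain ⟨c, hc1, hcT⟩ : ∃ c : ℝ, 1 ≤ c ∧ CT ≤ c := ⟨max CT 1, le_max_right _ _, le_max_left _ _⟩
  obtain ⟨KA, hKA⟩ := hA (Nat.card W + 2) (4 * c)
  refine ⟨K * ((r : ℝ) + 2) ^ 9 * (max KA 1 + max CS 1), fun V _ G b hG hNo hF hno => ?_⟩
  refine hK r (max KA 1) (max CS 1) V G (StarIn G (Nat.card W + 3) (fun L => ∃ L₀ ⊆ L,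
    (G.induce L₀).Connected ∧ ¬ DistortionLE (G.induce L₀) (2 * c))) (le_max_right _ _)
    (le_max_right _ _) hG hNo (fun A B hAB h => starIn_mono hAB h) ?_ ?_
  · intro A hAc hstar
    by_contra hbad
    obtain ⟨Z, D, hs⟩ := hKA A (G.induce A) hAc fun h => hbad (h.mono (le_max_left _ _))
    refine hstar ⟨Subtype.val '' Z, fun i => Subtype.val '' D i, ?_, fun i => ?_,
      push_conn hs.conn, fun i => ⟨push_conn (hs.bad i).1, ?_⟩, fun i => ?_, fun i j hij => ?_,
      fun i => ?_⟩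
    · rintro _ ⟨x, -, rfl⟩
      exact x.2
    · rintro _ ⟨x, -, rfl⟩
      exact x.2
    · refine ⟨_, subset_rfl, push_conn (hs.bad i).1, fun hd => (hs.bad i).2 ?_⟩
      have h2 := hM _ _ _ _ (2 * c) (by linarith) (push_conn (hs.bad i).1) (hs.bad i).1
        minor_ind2 hd
      exact h2.mono (by linarith)
    · exact (Set.disjoint_image_iff Subtype.val_injective).2 (hs.off i)
    · exact (Set.disjoint_image_iff Subtype.val_injective).2 (hs.disj i j hij)
    · obtain ⟨z, hz, x, hx, hzx⟩ := hs.adj i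
      exact ⟨z.1, ⟨z, hz, rfl⟩, x.1, ⟨x, hx, rfl⟩, hzx⟩
  · intro X _ Q p hQ hfib hQ1 _
    refine (hCS X Q (p b) hQ (fun hm => hNo ?_) (fun hm => hF ?_) fun hm => ?_).mono
      (le_max_left _ _)
    · refine H56.minor_trans hm ⟨fun a => {x | p x = a}, fun a => (hfib a).1, fun a b hab => ?_,
        fun a b hab => ?_⟩
      · rw [Set.disjoint_left]
        intro x hx hx'
        exact hab (hx.symm.trans hx')
      · obtain ⟨u, v, huv, hu, hv⟩ := hQ1 a b hab
        exact ⟨u, hu, v, hv, huv⟩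
    · exact rminor_quot (fun a => (hfib a).1) hQ1 hm
    · rcases hB W H S T v hS hT hST hST' hadj hSc V X G Q p b h _ hG
        (fun L L' hL _ _ ⟨L₀, h0, h1⟩ => ⟨L₀, h0.trans hL, h1⟩) hfib hQ1 hm with
        h1 | ⟨L, B, y, z, h1, ⟨L₀, hL0, hL1, hL2⟩, h3, h4, h5, h6, h7, h8, h9⟩
      · exact hno h1
      · refine hL2 (hM L L₀ (G.induce L) (G.induce L₀) c hc1 h1 hL1 (minor_ind hL0)
          ((hCT L (G.induce L) ⟨y, h3⟩ h1 (fun h => hNo (minor_push h))
            (fun h => hF (rminor_enter h3 h4 h5 h6 h7 h8 h)) fun hm => h9 ?_).mono hcT))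
        obtain ⟨μ, m1, m2, m3, m4⟩ := hm
        refine ⟨fun a => Subtype.val '' μ a, fun a => ⟨push_conn (m1 a), ?_⟩, fun a c hac => ?_,
          fun a c hac => ?_, ⟨_, m4, rfl⟩⟩
        · rintro _ ⟨x, -, rfl⟩
          exact x.2
        · exact (Set.disjoint_image_iff Subtype.val_injective).2 (m2 a c hac)
        · obtain ⟨x, hx, w, hw, hxw⟩ := m3 a c hac
          exact ⟨_, ⟨x, hx, rfl⟩, _, ⟨w, hw, rfl⟩, hxw⟩

end Vale.Agent.P235.H578
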