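import Vale.Agent.P235.H750.VDefs2
import Vale.Agent.P235.H56.MinTrans
import Vale.Agent.P235.H578.LK

/-!
P235 (helper578 for helper750), row ONE-a: connected sets without a star are good, from the nesting
theorem and the excluded grid theorem.
-/

set_option autoImplicit false

namespace Vale.Agent.P235.H578

open SimpleGraph Vale.Agent.P235 Vale.Agent.P235.H134 Vale.Agent.P235.H606 Vale.Agent.P235.H750

/-- grid minor free graphs are good -/
def GridFree : Prop :=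
  ∀ n : ℕ, ∃ C : ℝ, 1 ≤ C ∧ ∀ (V : Type) [Finite V] (G : SimpleGraph V), G.Connected →
    ¬ IsMinor (grid n) G → DistortionLE G C

theorem biUnion_conn {V X : Type} {G : SimpleGraph V} {K : SimpleGraph X} {ν : X → Set V}
    (h1 : ∀ a, (G.induce (ν a)).Connected)
    (h3 : ∀ a b, K.Adj a b → ∃ x ∈ ν a, ∃ y ∈ ν b, G.Adj x y) {S : Set X}
    (hS : (K.induce S).Connected) : (G.induce (⋃ x ∈ S, ν x)).Connected := by
  have hT : ∀ x ∈ S, ν x ⊆ ⋃ x ∈ S, ν x := fun x hx => Set.subset_biUnion_of_mem hx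
  obtain ⟨⟨x0, hx0⟩⟩ := hS.nonempty
  obtain ⟨⟨v0, hv0⟩⟩ := (h1 x0).nonempty
  have : Nonempty (⋃ x ∈ S, ν x : Set V) := ⟨⟨v0, hT x0 hx0 hv0⟩⟩
  refine ⟨fun u v => ?_⟩
  obtain ⟨u, hu⟩ := u
  obtain ⟨v, hv⟩ := v
  obtain ⟨x, hx, hux⟩ := Set.mem_iUnion₂.1 hu
  obtain ⟨y, hy, hvy⟩ := Set.mem_iUnion₂.1 hv
  obtain ⟨w⟩ := hS.preconnected ⟨x, hx⟩ ⟨y, hy⟩
  exact H56.reachable_union h1 h3 hT w u v hux hvy

theorem iUnion_conn {V X : Type} {G : SimpleGraph V} {K : SimpleGraph X} {ν : X → Set V}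
    (h1 : ∀ a, (G.induce (ν a)).Connected)
    (h3 : ∀ a b, K.Adj a b → ∃ x ∈ ν a, ∃ y ∈ ν b, G.Adj x y) (hK : K.Connected) :
    (G.induce (⋃ x, ν x)).Connected := by
  have h := biUnion_conn (S := Set.univ) h1 h3 ((Iso.connected_iff K.induceUnivIso).2 hK)
  rwa [Set.biUnion_univ] at h

theorem push_conn {V : Type} {G : SimpleGraph V} {A : Set V} {U : Set A}
    (h : ((G.induce A).induce U).Connected) : (G.induce (Subtype.val '' U)).Connected := by
  let f : (G.induce A).induce U →g G.induce (Subtype.val '' U) :=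
    { toFun := fun x => ⟨x.1.1, ⟨x.1, x.2, rfl⟩⟩
      map_rel' := fun h => h }
  have hf : ∀ y, ∃ x, f x = y := by
    rintro ⟨_, ⟨x, hx, rfl⟩⟩
    exact ⟨⟨x, hx⟩, rfl⟩
  obtain ⟨x0⟩ := h.nonempty
  have : Nonempty (Subtype.val '' U : Set V) := ⟨f x0⟩
  refine ⟨fun u v => ?_⟩
  obtain ⟨x, rfl⟩ := hf u
  obtain ⟨y, rfl⟩ := hf v
  exact (h.preconnected x y).map f

theorem minor_push {W V : Type} {H : SimpleGraph W} {G : SimpleGraph V} {A : Set V}
    (h : IsMinor H (G.induce A)) : IsMinor H G := by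
  obtain ⟨μ, h1, h2, h3⟩ := h
  refine ⟨fun a => Subtype.val '' μ a, fun a => push_conn (h1 a), fun a b hab => ?_,
    fun a b hab => ?_⟩
  · exact (Set.disjoint_image_iff Subtype.val_injective).2 (h2 a b hab)
  · obtain ⟨x, hx, y, hy, hxy⟩ := h3 a b hab
    exact ⟨x.1, ⟨x, hx, rfl⟩, y.1, ⟨y, hy, rfl⟩, hxy⟩

/-- a connected set can be enlarged inside `A`, off `B`, until its neighbours in `A` are in `B` -/
theorem exists_max_conn {V : Type} [Finite V] {G : SimpleGraph V} {A B Z₀ : Set V}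
    (hZ : (G.induce Z₀).Connected) (hZA : Z₀ ⊆ A) (hZB : Disjoint Z₀ B) :
    ∃ Z, Z₀ ⊆ Z ∧ Z ⊆ A ∧ Disjoint Z B ∧ (G.induce Z).Connected ∧
      ∀ u ∈ Z, ∀ w ∈ A, G.Adj u w → w ∈ Z ∨ w ∈ B := by
  classical
  obtain ⟨Z, hZm⟩ := Set.Finite.exists_maximal
    (s := {Z : Set V | Z₀ ⊆ Z ∧ Z ⊆ A ∧ Disjoint Z B ∧ (G.induce Z).Connected})
    (Set.toFinite _) ⟨Z₀, subset_rfl, hZA, hZB, hZ⟩
  obtain ⟨h1, h2, h3, h4⟩ := hZm.prop
  refine ⟨Z, h1, h2, h3, h4, fun u hu w hw huw => ?_⟩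
  by_cases hwB : w ∈ B
  · exact Or.inr hwB
  · left
    have h5 : Z ∪ {w} ∈ {Z : Set V | Z₀ ⊆ Z ∧ Z ⊆ A ∧ Disjoint Z B ∧ (G.induce Z).Connected} := by
      refine ⟨h1.trans Set.subset_union_left, Set.union_subset h2 (Set.singleton_subset_iff.2 hw),
        Set.disjoint_union_left.2 ⟨h3, Set.disjoint_singleton_left.2 hwB⟩,
        conn_union h4 (H56.conn_single G w) ⟨u, hu, w, rfl, huw⟩⟩
    exact hZm.le_of_ge h5 Set.subset_union_left (Or.inr rfl)

/-- a star from connected sets `M i` which contain the sets `L i` -/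
theorem star_of_ext {V : Type} [Finite V] {G : SimpleGraph V} {N : ℕ} {P0 : Set V → Prop}
    {A Z₀ : Set V} {M L : Fin N → Set V} (hZ : (G.induce Z₀).Connected) (hZA : Z₀ ⊆ A)
    (hM : ∀ i, (G.induce (M i)).Connected) (hMA : ∀ i, M i ⊆ A) (hZM : ∀ i, Disjoint Z₀ (M i))
    (hMM : ∀ i j, i ≠ j → Disjoint (M i) (M j)) (hadj : ∀ i, ∃ z ∈ Z₀, ∃ x ∈ M i, G.Adj z x)
    (hLM : ∀ i, L i ⊆ M i) (hL : ∀ i, (G.induce (L i)).Connected ∧ P0 (L i)) :
    StarIn G N P0 A := by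
  have hZB : Disjoint Z₀ (⋃ i, L i) := by
    rw [Set.disjoint_iUnion_right]
    exact fun i => (hZM i).mono_right (hLM i)
  obtain ⟨Z, h1, h2, h3, h4, h5⟩ := exists_max_conn hZ hZA hZB
  have hin : ∀ i x, x ∈ M i → x ∈ ⋃ i, L i → x ∈ L i := by
    intro i x hx hx'
    obtain ⟨j, hj⟩ := Set.mem_iUnion.1 hx'
    by_cases hij : i = j
    · exact hij ▸ hj
    · exact absurd (hLM j hj) (Set.disjoint_left.1 (hMM i j hij) hx)
  refine ⟨Z, L, h2, fun i => (hLM i).trans (hMA i), h4, hL, fun i => ?_, fun i j hij =>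
    (hMM i j hij).mono (hLM i) (hLM j), fun i => ?_⟩
  · exact h3.mono_right (Set.subset_iUnion L i)
  · obtain ⟨z, hz, m, hm, hzm⟩ := hadj i
    rcases h5 z (h1 hz) m (hMA i hm) hzm with h6 | h6
    · obtain ⟨⟨y, hy⟩⟩ := (hL i).1.nonempty
      have hyZ : y ∉ Z := fun h => Set.disjoint_left.1 h3 h (Set.mem_iUnion.2 ⟨i, hy⟩)
      obtain ⟨w⟩ := (hM i).preconnected ⟨m, hm⟩ ⟨y, hLM i hy⟩
      obtain ⟨d, -, hd1, hd2⟩ := w.exists_boundary_dart {x : M i | x.1 ∈ Z} h6 hyZ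
      have hd3 : G.Adj d.fst.1 d.snd.1 := d.adj
      rcases h5 _ hd1 _ (hMA i d.snd.2) hd3 with h7 | h7
      · exact absurd h7 hd2
      · exact ⟨_, hd1, _, hin i _ d.snd.2 h7, hd3⟩
    · exact ⟨z, h1 hz, m, hin i m hm h6, hzm⟩

/-- **(ONE-a)** -/
theorem oneA_of (hGrid : GridFree) (hN : NestStmt) : OneAStmt := by
  classical
  intro W _ T t N r hT hR
  obtain ⟨K, hK1, hK⟩ := hN
  obtain ⟨CT, hCT⟩ := hR r
  obtain ⟨CG, hCG1, hCG⟩ := hGrid (N + 2)
  have hr0 : (0 : ℝ) ≤ r := Nat.cast_nonneg r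
  have hq : (1 : ℝ) ≤ ((r : ℝ) + 2) ^ 9 := one_le_pow₀ (by linarith)
  refine ⟨K * ((r : ℝ) + 2) ^ 9 * (max CT 1 + CG), ?_, ?_⟩
  · have h1 : (1 : ℝ) ≤ max CT 1 + CG := by
      have := le_max_right CT 1
      linarith
    exact one_le_mul_of_one_le_of_one_le (one_le_mul_of_one_le_of_one_le hK1 hq) h1
  intro V _ G _ hNo A hA hstar
  refine hK r (max CT 1) CG A (G.induce A) (fun B => ∃ L ⊆ Subtype.val '' B,
    (G.induce L).Connected ∧ RAll T t G L) (le_max_right _ _) hCG1 hA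
    (fun h => hNo (minor_push h)) ?_ ?_ ?_
  · rintro B B' hBB ⟨L, hL, h1, h2⟩
    exact ⟨L, hL.trans (Set.image_mono hBB), h1, h2⟩
  · intro B hB hno
    have hNo' : Kr.NoK r ((G.induce A).induce B) := fun h => hNo (minor_push (minor_push h))
    have hx : ¬ RAll T t G (Subtype.val '' B) := fun h => hno ⟨_, subset_rfl, push_conn hB, h⟩
    unfold RAll at hx
    push Not at hx
    obtain ⟨x, ⟨b, hb, rfl⟩, hx⟩ := hx
    refine (hCT B ((G.induce A).induce B) ⟨b, hb⟩ hB hNo' fun h => ?_).mono (le_max_left _ _)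
    obtain ⟨μ, h1, h2, h3, h4⟩ := h
    refine hx (fun a => Subtype.val '' (Subtype.val '' μ a)) (fun a => ⟨?_, ?_⟩) ?_ ?_ ?_
    · exact push_conn (push_conn (h1 a))
    · rintro _ ⟨_, ⟨z, -, rfl⟩, rfl⟩
      exact ⟨z.1, z.2, rfl⟩
    · intro a b hab
      exact (Set.disjoint_image_iff Subtype.val_injective).2
        ((Set.disjoint_image_iff Subtype.val_injective).2 (h2 a b hab))
    · intro a b hab
      obtain ⟨x, hx, y, hy, hxy⟩ := h3 a b hab
      exact ⟨_, ⟨_, ⟨x, hx, rfl⟩, rfl⟩, _, ⟨_, ⟨y, hy, rfl⟩, rfl⟩, hxy⟩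
    · exact ⟨_, ⟨_, h4, rfl⟩, rfl⟩
  · intro W' _ Q p hQ hfib hQ1 hQ2
    refine hCG W' Q hQ fun hm => hstar ?_
    obtain ⟨μ, h1, h2, h3⟩ := hm
    -- preimages
    have e1 : ∀ a b, Q.Adj a b →
        ∃ x ∈ {v | p v = a}, ∃ y ∈ {v | p v = b}, (G.induce A).Adj x y := by
      intro a b hab
      obtain ⟨u, v, huv, hu, hv⟩ := hQ1 a b hab
      exact ⟨u, hu, v, hv, huv⟩
    have c1 : ∀ z, ((G.induce A).induce {v | p v ∈ μ z}).Connected := by
      intro z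
      have h := biUnion_conn (ν := fun a => {v | p v = a}) (fun a => (hfib a).1) e1 (h1 z)
      have he : (⋃ x ∈ μ z, {v | p v = x}) = {v | p v ∈ μ z} := by
        ext v
        simp
      rwa [he] at h
    have d1 : ∀ z w, z ≠ w → Disjoint {v | p v ∈ μ z} {v | p v ∈ μ w} := by
      intro z w hzw
      rw [Set.disjoint_left]
      intro v hv hv'
      exact Set.disjoint_left.1 (h2 z w hzw) hv hv'
    have a1 : ∀ z w, (grid (N + 2)).Adj z w →
        ∃ x ∈ {v | p v ∈ μ z}, ∃ y ∈ {v | p v ∈ μ w}, (G.induce A).Adj x y := by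
      intro z w hzw
      obtain ⟨a, ha, b, hb, hab⟩ := h3 z w hzw
      obtain ⟨u, hu, v, hv, huv⟩ := e1 a b hab
      exact ⟨u, by rw [Set.mem_ofPred_eq, hu]; exact ha, v, by rw [Set.mem_ofPred_eq, hv]; exact hb,
        huv⟩
    have hrow : ∀ i j, (pathGraph (N + 2)).Adj i j →
        ∃ x ∈ {v | p v ∈ μ ((0 : Fin (N + 2)), i)}, ∃ y ∈ {v | p v ∈ μ ((0 : Fin (N + 2)), j)},
          (G.induce A).Adj x y :=
      fun i j hij => a1 _ _ (Or.inr ⟨hij, rfl⟩)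
    have hZ := iUnion_conn (ν := fun j => {v | p v ∈ μ ((0 : Fin (N + 2)), j)}) (fun j => c1 _)
      hrow (pathGraph_connected (N + 1))
    have h01 : (0 : Fin (N + 2)) ≠ 1 := by
      intro h
      have := congrArg Fin.val h
      simp at this
    have hpick : ∀ z, ∃ L ⊆ Subtype.val '' {v | p v ∈ μ z}, (G.induce L).Connected ∧
        RAll T t G L := by
      intro z
      obtain ⟨⟨a, ha⟩⟩ := (h1 z).nonempty
      obtain ⟨L, hL, h5, h6⟩ := (hfib a).2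
      refine ⟨L, hL.trans (Set.image_mono ?_), h5, h6⟩
      intro v hv
      rw [Set.mem_ofPred_eq] at hv ⊢
      rw [hv]
      exact ha
    choose L hL1 hL2 hL3 using hpick
    let c : Fin N → Fin (N + 2) := fun i => i.castLE (by omega)
    have hc : Function.Injective c := Fin.castLE_injective _
    refine star_of_ext (Z₀ := Subtype.val '' ⋃ j, {v | p v ∈ μ ((0 : Fin (N + 2)), j)})
      (M := fun i => Subtype.val '' {v | p v ∈ μ ((1 : Fin (N + 2)), c i)})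
      (L := fun i => L ((1 : Fin (N + 2)), c i)) (push_conn hZ) ?_ (fun i => push_conn (c1 _)) ?_
      ?_ ?_ ?_ (fun i => hL1 _) (fun i => ⟨hL2 _, hL3 _⟩)
    · rintro _ ⟨x, -, rfl⟩
      exact x.2
    · rintro i _ ⟨x, -, rfl⟩
      exact x.2
    · intro i
      refine (Set.disjoint_image_iff Subtype.val_injective).2 ?_
      rw [Set.disjoint_iUnion_left]
      exact fun j => d1 _ _ fun h => h01 (congrArg Prod.fst h)
    · intro i j hij
      exact (Set.disjoint_image_iff Subtype.val_injective).2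
        (d1 _ _ fun h => hij (hc (congrArg Prod.snd h)))
    · intro i
      have hadj : (grid (N + 2)).Adj ((0 : Fin (N + 2)), c i) ((1 : Fin (N + 2)), c i) := by
        refine Or.inl ⟨?_, rfl⟩
        rw [pathGraph_adj]
        left
        simp
      obtain ⟨x, hx, y, hy, hxy⟩ := a1 _ _ hadj
      exact ⟨x.1, ⟨x, Set.mem_iUnion.2 ⟨c i, hx⟩, rfl⟩, y.1, ⟨y, hy, rfl⟩, hxy⟩

end Vale.Agent.P235.H578
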